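import Vale.Agent.P277.H29.PH.Defs
import Vale.Agent.P299.H720.Montel

/-!
# P277, (P1c), (P1d): uniform limits of holomorphic functions, Montel's theorem
-/

open Filter Topology Set Metric
open scoped Manifold ContDiff
open Vale.Agent.P272.K

set_option linter.unusedSectionVars false

noncomputable section

namespace Vale.Agent.P277.H60.L

open Vale.Agent.P277.PH

variable {n : ℕ} {H : Type} [TopologicalSpace H] [ChartedSpace (Cm n) H]

/-- pointwise limits along an ultrafilter of bounded holomorphic functions -/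
theorem lim_hol {α : Type*} {S : Set H} (hS : IsOpen S) (𝒰 : Ultrafilter α) (F : α → H → ℂ)
    (G : H → ℂ) (C : ℝ) (hF : ∀ᶠ a in (𝒰 : Filter α), (∀ x ∈ S, HolF n (F a) x) ∧ ∀ x, ‖F a x‖ ≤ C)
    (hG : ∀ x ∈ S, Tendsto (fun a => F a x) 𝒰 (𝓝 (G x))) :
    (∀ x ∈ S, HolF n G x) ∧ ∀ x ∈ S, ∀ ε > 0, ∃ t ∈ 𝓝 x, ∀ᶠ a in (𝒰 : Filter α),
      ∀ y ∈ t, dist (G y) (F a y) < ε := by
  have key : ∀ e ∈ atlas (Cm n) H, ∃ g : Cm n → ℂ,
      DifferentiableOn ℂ g (e.target ∩ e.symm ⁻¹' S) ∧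
      TendstoLocallyUniformlyOn (fun a z => F a (e.symm z)) g (𝒰 : Filter α)
        (e.target ∩ e.symm ⁻¹' S) ∧ ∀ z ∈ e.target ∩ e.symm ⁻¹' S, g z = G (e.symm z) := by
    intro e he
    have hU : IsOpen (e.target ∩ e.symm ⁻¹' S) := e.symm.isOpen_inter_preimage hS
    have hloc : Vale.Agent.P299.H720.LocBdd (𝒰 : Filter α) (fun a z => F a (e.symm z))
        (e.target ∩ e.symm ⁻¹' S) := by
      intro z hz
      obtain ⟨r, hr, hrU⟩ := Metric.isOpen_iff.1 hU z hz
      refine ⟨r, hr, C, ?_⟩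
      filter_upwards [hF] with a ha
      refine ⟨fun y hy => ?_, fun y _ => ha.2 _⟩
      have hyU := hrU hy
      have h1 := ha.1 (e.symm y) hyU.2 e ⟨he, e.map_target hyU.1⟩
      rw [e.right_inv hyU.1] at h1
      exact h1.differentiableAt.differentiableWithinAt
    obtain ⟨g, hg1, hg2, hg3⟩ := Vale.Agent.P299.H720.montel_full 𝒰 hU hloc
    refine ⟨g, hg1, hg2, fun z hz => ?_⟩
    have h1 := hg3 z hz (fun _ => z) tendsto_const_nhds
    exact tendsto_nhds_unique h1 (hG _ hz.2)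
  refine ⟨fun x hx e he => ?_, fun x hx ε hε => ?_⟩
  · obtain ⟨g, hg1, -, hg3⟩ := key e he.1
    have hU : IsOpen (e.target ∩ e.symm ⁻¹' S) := e.symm.isOpen_inter_preimage hS
    have hxU : e x ∈ e.target ∩ e.symm ⁻¹' S :=
      ⟨e.map_source he.2, by rw [mem_preimage, e.left_inv he.2]; exact hx⟩
    refine (Vale.Agent.P268.analyticAt_of_differentiableOn hU hg1 hxU).congr ?_
    filter_upwards [hU.mem_nhds hxU] with z hz
    exact hg3 z hz
  · have he : chartAt (Cm n) x ∈ atlas (Cm n) H := chart_mem_atlas _ _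
    set e := chartAt (Cm n) x with hedef
    have hxe : x ∈ e.source := mem_chart_source _ _
    obtain ⟨g, -, hg2, hg3⟩ := key e he
    have hU : IsOpen (e.target ∩ e.symm ⁻¹' S) := e.symm.isOpen_inter_preimage hS
    have hxU : e x ∈ e.target ∩ e.symm ⁻¹' S :=
      ⟨e.map_source hxe, by rw [mem_preimage, e.left_inv hxe]; exact hx⟩
    obtain ⟨t, ht, h⟩ := Metric.tendstoLocallyUniformlyOn_iff.1 hg2 ε hε (e x) hxU
    rw [hU.nhdsWithin_eq hxU] at ht
    refine ⟨e.source ∩ e ⁻¹' (t ∩ (e.target ∩ e.symm ⁻¹' S)),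
      inter_mem (e.open_source.mem_nhds hxe)
        ((e.continuousAt hxe).preimage_mem_nhds (inter_mem ht (hU.mem_nhds hxU))), ?_⟩
    filter_upwards [h] with a ha y hy
    have h1 := ha (e y) hy.2.1
    rw [hg3 _ hy.2.2, e.left_inv hy.1] at h1
    exact h1

/-- (P1c) -/
theorem stHBc : StHBc := by
  intro n H _ _ _ I S hS
  rw [isClosed_iff_ultrafilter]
  intro f 𝒰 h𝒰 hmem
  have hev : ∀ p : Dsc (I × H), Tendsto (fun g : BoundedContinuousFunction (Dsc (I × H)) ℂ => g p)
      (𝒰 : Filter _) (𝓝 (f p)) := by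
    intro p
    have h1 : Continuous fun g : BoundedContinuousFunction (Dsc (I × H)) ℂ => g p :=
      continuous_eval_const p
    exact (h1.tendsto f).mono_left h𝒰
  refine ⟨fun i x hx => ?_, fun i => ?_⟩
  · have h1 : Tendsto (fun g : BoundedContinuousFunction (Dsc (I × H)) ℂ => g (i, x))
        (𝒰 : Filter _) (𝓝 0) := by
      refine (tendsto_const_nhds (x := (0 : ℂ))).congr' ?_
      filter_upwards [hmem] with g hg
      exact (hg.1 i x hx).symm
    exact tendsto_nhds_unique (hev (i, x)) h1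
  · refine (lim_hol (hS i) 𝒰 (fun g y => g (i, y)) (fun y => f (i, y)) (‖f‖ + 1) ?_
      (fun x _ => hev (i, x))).1
    have h2 : ∀ᶠ g : BoundedContinuousFunction (Dsc (I × H)) ℂ in (𝒰 : Filter _),
        ‖g‖ < ‖f‖ + 1 := by
      refine h𝒰 ?_
      exact (continuous_norm.tendsto f).eventually (gt_mem_nhds (by linarith))
    filter_upwards [hmem, h2] with g hg hg2
    exact ⟨hg.2 i, fun x => (g.norm_coe_le_norm _).trans hg2.le⟩

section Res

variable {I : Type} {S S' : I → Set H}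

open Classical in
/-- restriction, as a map -/
def resF (S' : I → Set H) (f : BoundedContinuousFunction (Dsc (I × H)) ℂ) :
    BoundedContinuousFunction (Dsc (I × H)) ℂ :=
  BoundedContinuousFunction.ofNormedAddCommGroupDiscrete
    (fun p : Dsc (I × H) => if p.2 ∈ S' p.1 then f p else 0) ‖f‖ (fun p => by
      split_ifs
      · exact f.norm_coe_le_norm _
      · rw [norm_zero]; exact norm_nonneg _)

theorem resF_mem (f : BoundedContinuousFunction (Dsc (I × H)) ℂ) {i : I} {x : H}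
    (hx : x ∈ S' i) : resF S' f (i, x) = f (i, x) := if_pos hx

theorem resF_notMem (f : BoundedContinuousFunction (Dsc (I × H)) ℂ) {i : I} {x : H}
    (hx : x ∉ S' i) : resF S' f (i, x) = 0 := if_neg hx

theorem resF_hb (hS' : ∀ i, IsOpen (S' i)) (hSS : ∀ i, S' i ⊆ S i)
    {f : BoundedContinuousFunction (Dsc (I × H)) ℂ} (hf : f ∈ HB n S) : resF S' f ∈ HB n S' := by
  refine ⟨fun i x hx => resF_notMem f hx, fun i x hx e he => ?_⟩
  refine (hf.2 i x (hSS i hx) e he).congr ?_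
  have h1 : ∀ᶠ z in 𝓝 (e x), e.symm z ∈ S' i := by
    have h2 : ContinuousAt e.symm (e x) := e.continuousAt_symm (e.map_source he.2)
    refine h2.eventually ((hS' i).mem_nhds ?_)
    rw [e.left_inv he.2]
    exact hx
  filter_upwards [h1] with z hz
  exact (resF_mem f hz).symm

theorem resF_norm (f : BoundedContinuousFunction (Dsc (I × H)) ℂ) : ‖resF S' f‖ ≤ ‖f‖ := by
  refine (BoundedContinuousFunction.norm_le (norm_nonneg _)).2 fun p => ?_
  obtain ⟨i, x⟩ := p
  by_cases hx : x ∈ S' i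
  · rw [resF_mem f hx]; exact f.norm_coe_le_norm _
  · rw [resF_notMem f hx, norm_zero]; exact norm_nonneg _

theorem resF_add (f g : BoundedContinuousFunction (Dsc (I × H)) ℂ) :
    resF S' (f + g) = resF S' f + resF S' g := by
  refine BoundedContinuousFunction.ext fun p => ?_
  obtain ⟨i, x⟩ := p
  show resF S' (f + g) (i, x) = resF S' f (i, x) + resF S' g (i, x)
  by_cases hx : x ∈ S' i
  · have h : (f + g) (i, x) = f (i, x) + g (i, x) := rfl
    exact (resF_mem (f + g) hx).trans (h.trans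
      (congrArg₂ (· + ·) (resF_mem f hx).symm (resF_mem g hx).symm))
  · rw [resF_notMem _ hx, resF_notMem _ hx, resF_notMem _ hx, add_zero]

theorem resF_smul (c : ℝ) (f : BoundedContinuousFunction (Dsc (I × H)) ℂ) :
    resF S' (c • f) = c • resF S' f := by
  refine BoundedContinuousFunction.ext fun p => ?_
  obtain ⟨i, x⟩ := p
  show resF S' (c • f) (i, x) = c • resF S' f (i, x)
  by_cases hx : x ∈ S' i
  · have h : (c • f) (i, x) = c • f (i, x) := rfl
    exact (resF_mem (c • f) hx).trans (h.trans (congrArg (c • ·) (resF_mem f hx).symm))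
  · rw [resF_notMem _ hx, resF_notMem _ hx, smul_zero]

/-- restriction, as a linear map -/
def resL (n : ℕ) [ChartedSpace (Cm n) H] (hS' : ∀ i, IsOpen (S' i)) (hSS : ∀ i, S' i ⊆ S i) :
    HB n S →ₗ[ℝ] HB n S' where
  toFun f := ⟨resF S' f.1, resF_hb hS' hSS f.2⟩
  map_add' f g := Subtype.ext (resF_add f.1 g.1)
  map_smul' c f := Subtype.ext (resF_smul c f.1)

/-- restriction, as a continuous linear map -/
def resR (n : ℕ) [ChartedSpace (Cm n) H] (hS' : ∀ i, IsOpen (S' i)) (hSS : ∀ i, S' i ⊆ S i) :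
    HB n S →L[ℝ] HB n S' :=
  (resL n hS' hSS).mkContinuous 1 fun f => by
    rw [one_mul]
    exact resF_norm f.1

theorem resR_val (hS' : ∀ i, IsOpen (S' i)) (hSS : ∀ i, S' i ⊆ S i) (f : HB n S) :
    (resR n hS' hSS f).1 = resF S' f.1 := rfl

end Res

/-- (P1d) -/
theorem stMontel : StMontel := by
  intro n H _ _ _ _ I _ S S' hS hS' hK
  choose K hKc hS'K hKS using hK
  have hSS : ∀ i, S' i ⊆ S i := fun i => (hS'K i).trans (hKS i)
  set R : HB n S →L[ℝ] HB n S' := resR n hS' hSS with hRdef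
  have hR : ∀ (f : HB n S) (i : I) (x : H), x ∈ S' i → (R f).1 (i, x) = f.1 (i, x) :=
    fun f i x hx => resF_mem f.1 hx
  have hR0 : ∀ (f : HB n S) (i : I) (x : H), x ∉ S' i → (R f).1 (i, x) = 0 :=
    fun f i x hx => resF_notMem f.1 hx
  refine ⟨R, hR, R '' closedBall 0 1, ?_,
    mem_of_superset (closedBall_mem_nhds (0 : HB n S) one_pos) (subset_preimage_image _ _)⟩
  rw [isCompact_iff_ultrafilter_le_nhds]
  intro 𝒱 h𝒱
  have h1 : R '' closedBall 0 1 ∈ 𝒱 := le_principal_iff.1 h𝒱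
  set 𝒰 := Ultrafilter.ofComapInfPrincipal h1 with h𝒰
  have hB : closedBall (0 : HB n S) 1 ∈ 𝒰 := Ultrafilter.ofComapInfPrincipal_mem h1
  have hmap : 𝒰.map R = 𝒱 := Ultrafilter.ofComapInfPrincipal_eq_of_map h1
  have hbd : ∀ᶠ f : HB n S in (𝒰 : Filter _), ∀ p, ‖f.1 p‖ ≤ 1 := by
    filter_upwards [hB] with f hf p
    rw [mem_closedBall_zero_iff] at hf
    exact (f.1.norm_coe_le_norm p).trans hf
  have hlim : ∀ p : Dsc (I × H), ∃ y ∈ closedBall (0 : ℂ) 1,
      Tendsto (fun f : HB n S => f.1 p) (𝒰 : Filter _) (𝓝 y) := by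
    intro p
    obtain ⟨y, hy, hy'⟩ := (isCompact_closedBall (0 : ℂ) 1).ultrafilter_le_nhds
      (𝒰.map fun f : HB n S => f.1 p) (by
        rw [le_principal_iff]
        show (fun f : HB n S => f.1 p) ⁻¹' closedBall 0 1 ∈ 𝒰
        filter_upwards [hbd] with f hf
        simpa using hf p)
    exact ⟨y, hy, hy'⟩
  choose G hG1 hG2 using hlim
  let g : BoundedContinuousFunction (Dsc (I × H)) ℂ :=
    BoundedContinuousFunction.ofNormedAddCommGroupDiscrete G 1 (fun p => by
      simpa using hG1 p)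
  have hgG : ∀ p, g p = G p := fun p => rfl
  have hlh : ∀ i, (∀ x ∈ S i, HolF n (fun y => G (i, y)) x) ∧ ∀ x ∈ S i, ∀ ε > 0, ∃ t ∈ 𝓝 x,
      ∀ᶠ f : HB n S in (𝒰 : Filter _), ∀ y ∈ t, dist (G (i, y)) (f.1 (i, y)) < ε := by
    intro i
    refine lim_hol (hS i) 𝒰 (fun f y => f.1 (i, y)) (fun y => G (i, y)) 1 ?_
      (fun x _ => hG2 (i, x))
    filter_upwards [hbd] with f hf
    exact ⟨f.2.2 i, fun x => hf (i, x)⟩
  have hgmem : g ∈ HB n S := by
    refine ⟨fun i x hx => ?_, fun i => (hlh i).1⟩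
    have h2 : Tendsto (fun f : HB n S => f.1 (i, x)) (𝒰 : Filter _) (𝓝 0) := by
      refine (tendsto_const_nhds (x := (0 : ℂ))).congr fun f => ?_
      exact (f.2.1 i x hx).symm
    exact tendsto_nhds_unique (hG2 (i, x)) h2
  refine ⟨R ⟨g, hgmem⟩, ⟨⟨g, hgmem⟩, ?_, rfl⟩, ?_⟩
  · rw [mem_closedBall_zero_iff]
    show ‖g‖ ≤ 1
    refine (BoundedContinuousFunction.norm_le zero_le_one).2 fun p => ?_
    exact mem_closedBall_zero_iff.1 (hG1 p)
  · rw [← hmap]
    show Tendsto R (𝒰 : Filter _) (𝓝 (R ⟨g, hgmem⟩))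
    rw [Metric.tendsto_nhds]
    intro ε hε
    have hunif : ∀ i, ∀ᶠ f : HB n S in (𝒰 : Filter _), ∀ y ∈ K i,
        dist (G (i, y)) (f.1 (i, y)) < ε / 2 := by
      intro i
      refine (hKc i).induction_on (p := fun s => ∀ᶠ f : HB n S in (𝒰 : Filter _), ∀ y ∈ s,
        dist (G (i, y)) (f.1 (i, y)) < ε / 2) ?_ ?_ ?_ ?_
      · exact Eventually.of_forall fun f y hy => hy.elim
      · intro s t hst ht
        filter_upwards [ht] with f hf y hy
        exact hf y (hst hy)
      · intro s t hs ht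
        filter_upwards [hs, ht] with f hf1 hf2 y hy
        rcases hy with hy | hy
        · exact hf1 y hy
        · exact hf2 y hy
      · intro x hx
        obtain ⟨t, ht, h⟩ := (hlh i).2 x (hKS i hx) (ε / 2) (half_pos hε)
        exact ⟨t, mem_nhdsWithin_of_mem_nhds ht, h⟩
    have hall := eventually_all.2 hunif
    filter_upwards [hall] with f hf
    refine lt_of_le_of_lt ?_ (half_lt_self hε)
    show dist (R f).1 (R ⟨g, hgmem⟩).1 ≤ ε / 2
    refine (BoundedContinuousFunction.dist_le (half_pos hε).le).2 fun p => ?_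
    obtain ⟨i, x⟩ := p
    by_cases hx : x ∈ S' i
    · rw [hR f i x hx, hR _ i x hx, dist_comm]
      exact (hf i x (hS'K i hx)).le
    · rw [hR0 f i x hx, hR0 _ i x hx, dist_self]
      exact (half_pos hε).le

end Vale.Agent.P277.H60.L
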