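import Vale.Agent.P277.H29.PH.Defs

/-!
# P277, (P1b): Schwartz's theorem, elementary form
-/

open Filter Topology Set Metric

namespace Vale.Agent.P277.H60.L

theorem surj_of_approx {G F : Type*} [NormedAddCommGroup G] [NormedSpace ℝ G] [CompleteSpace G]
    [NormedAddCommGroup F] [NormedSpace ℝ F] (S : G →L[ℝ] F) (C : ℝ) (hC : 0 ≤ C)
    (h : ∀ y : F, ∃ p : G, ‖p‖ ≤ C * ‖y‖ ∧ ‖y - S p‖ ≤ (1 / 2) * ‖y‖) :
    Function.Surjective S := by
  choose p hp1 hp2 using h
  intro y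
  let s : ℕ → F := fun k => Nat.rec y (fun _ z => z - S (p z)) k
  have hs0 : s 0 = y := rfl
  have hs : ∀ k, s (k + 1) = s k - S (p (s k)) := fun k => rfl
  have hn : ∀ k, ‖s k‖ ≤ (1 / 2) ^ k * ‖y‖ := by
    intro k
    induction k with
    | zero => rw [hs0]; simp
    | succ k ih =>
      rw [hs, pow_succ]
      calc ‖s k - S (p (s k))‖ ≤ (1 / 2) * ‖s k‖ := hp2 _
        _ ≤ (1 / 2) * ((1 / 2) ^ k * ‖y‖) := by gcongr
        _ = (1 / 2) ^ k * (1 / 2) * ‖y‖ := by ring
  have hsum : Summable fun k => p (s k) := by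
    refine Summable.of_norm_bounded (g := fun k => C * ‖y‖ * (1 / 2 : ℝ) ^ k)
      (summable_geometric_two.mul_left _) fun k => ?_
    calc ‖p (s k)‖ ≤ C * ‖s k‖ := hp1 _
      _ ≤ C * ((1 / 2) ^ k * ‖y‖) := by gcongr; exact hn k
      _ = C * ‖y‖ * (1 / 2) ^ k := by ring
  have hpart : ∀ m, S (∑ k ∈ Finset.range m, p (s k)) = y - s m := by
    intro m
    induction m with
    | zero => simp [hs0]
    | succ m ih =>
      rw [Finset.sum_range_succ, map_add, ih, hs]
      abel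
  have h1 : Tendsto (fun m => S (∑ k ∈ Finset.range m, p (s k))) atTop
      (𝓝 (S (∑' k, p (s k)))) :=
    (S.continuous.tendsto _).comp hsum.hasSum.tendsto_sum_nat
  have h2 : Tendsto s atTop (𝓝 0) := by
    refine squeeze_zero_norm hn ?_
    have := (tendsto_pow_atTop_nhds_zero_of_lt_one (r := (1 / 2 : ℝ)) (by norm_num)
      (by norm_num)).mul_const ‖y‖
    simpa using this
  have h3 : Tendsto (fun m => S (∑ k ∈ Finset.range m, p (s k))) atTop (𝓝 y) := by
    simp_rw [hpart]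
    simpa using h2.const_sub y
  exact ⟨_, tendsto_nhds_unique h1 h3⟩

theorem schwartz {E F : Type*} [NormedAddCommGroup E] [NormedSpace ℝ E] [CompleteSpace E]
    [NormedAddCommGroup F] [NormedSpace ℝ F] [CompleteSpace F] (u v : E →L[ℝ] F)
    (hu : Function.Surjective u) (hv : IsCompactOperator v) :
    FiniteDimensional ℝ (F ⧸ (u + v).range) := by
  obtain ⟨C, hC0, hC⟩ := u.exists_preimage_norm_le hu
  obtain ⟨K, hK, hvK⟩ := hv.image_ball_subset_compact (r := C + 1)
  obtain ⟨t, htK, htf, hcov⟩ := hK.finite_cover_balls (e := 1 / 2) (by norm_num)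
  obtain ⟨M, hM⟩ : ∃ M : ℝ, ∀ x ∈ t, ‖x‖ ≤ M := by
    obtain ⟨M, hM⟩ := htf.isBounded.exists_norm_le
    exact ⟨M, hM⟩
  let N : Submodule ℝ F := Submodule.span ℝ t
  haveI hN : FiniteDimensional ℝ N := FiniteDimensional.span_of_finite ℝ htf
  haveI : CompleteSpace N := FiniteDimensional.complete ℝ N
  let S : E × N →L[ℝ] F := (u + v).coprod N.subtypeL
  have hS : Function.Surjective S := by
    refine surj_of_approx S (max C (max M 0)) (le_max_of_le_right (le_max_right _ _)) ?_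
    intro y
    by_cases hy : y = 0
    · exact ⟨0, by simp [hy]⟩
    have hy0 : 0 < ‖y‖ := norm_pos_iff.2 hy
    obtain ⟨x, hx, hxC⟩ := hC ((‖y‖)⁻¹ • y)
    have h1 : ‖(‖y‖)⁻¹ • y‖ = 1 := by
      rw [norm_smul, norm_inv, norm_norm, inv_mul_cancel₀ hy0.ne']
    rw [h1, mul_one] at hxC
    have h2 : v x ∈ K := hvK ⟨x, by rw [mem_ball_zero_iff]; linarith, rfl⟩
    obtain ⟨w, hw, hwx⟩ := mem_iUnion₂.1 (hcov h2)
    rw [mem_ball, dist_eq_norm] at hwx
    have hwN : w ∈ N := Submodule.subset_span hw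
    refine ⟨(‖y‖ • x, ⟨-(‖y‖ • w), N.neg_mem (N.smul_mem _ hwN)⟩), ?_, ?_⟩
    · rw [Prod.norm_def]
      refine max_le ?_ ?_
      · show ‖‖y‖ • x‖ ≤ _
        rw [norm_smul, norm_norm, mul_comm]
        gcongr
        exact hxC.trans (le_max_left _ _)
      · show ‖-(‖y‖ • w)‖ ≤ _
        rw [norm_neg, norm_smul, norm_norm, mul_comm]
        gcongr
        exact (hM w hw).trans ((le_max_left _ _).trans (le_max_right _ _))
    · have h3 : y - S (‖y‖ • x, ⟨-(‖y‖ • w), N.neg_mem (N.smul_mem _ hwN)⟩) =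
          -(‖y‖ • (v x - w)) := by
        have h4 : u (‖y‖ • x) = y := by
          rw [map_smul, hx, smul_smul, mul_inv_cancel₀ hy0.ne', one_smul]
        show y - ((u + v) (‖y‖ • x) + -(‖y‖ • w)) = _
        rw [_root_.add_apply, h4, map_smul, smul_sub]
        abel
      rw [h3, norm_neg, norm_smul, norm_norm, mul_comm]
      gcongr
  have hq : Function.Surjective ((u + v).range.mkQ.comp N.subtype) := by
    intro q
    obtain ⟨y, rfl⟩ := Submodule.mkQ_surjective _ q
    obtain ⟨⟨x, w⟩, hxw⟩ := hS y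
    refine ⟨w, ?_⟩
    rw [LinearMap.comp_apply, Submodule.mkQ_apply, Submodule.mkQ_apply, Submodule.Quotient.eq]
    refine ⟨-x, ?_⟩
    have h5 : (u + v) x + (w : F) = y := hxw
    show (u + v) (-x) = (w : F) - y
    rw [map_neg, ← h5]
    abel
  exact Module.Finite.of_surjective _ hq

theorem stSchwartz : Vale.Agent.P277.PH.StSchwartz :=
  fun E F _ _ _ _ _ _ u v hu hv => schwartz u v hu hv

end Vale.Agent.P277.H60.L
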