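import Vale.Agent.P277.H60.L.Dolb
import Vale.Agent.P277.H29.PH.Defs

/-! P277, (P1a) -/

namespace Vale.Agent.P277.H60.L

theorem stDbar : Vale.Agent.P277.PH.StDbar := fun n c r R hr hrR ι U g hU hcov hg hd =>
  dbar_glue n c r R hr hrR ι U g hU hcov hg hd

end Vale.Agent.P277.H60.L
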