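import Vale.Agent.P267.H439.DivLoc
import Vale.Agent.P272.K.Stmt

/-!
# P277: the Cauchy transform in one of the variables of `ℂⁿ`
-/

open Filter Topology MeasureTheory Set Metric
open scoped ContDiff Real

noncomputable section

namespace Vale.Agent.P277.H60.L

open Vale.Agent.P267.H439 (cau2 ker1 cau2_contDiff fderiv_cau2_apply dbv_cau2
  locallyIntegrable_ker1 dbv)
open Vale.Agent.P272.K (Cm dz dzb)

variable {n : ℕ}

/-- replace the coordinate `j` -/
def rep (j : Fin n) : Cm n × ℂ →L[ℝ] Cm n :=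
  ContinuousLinearMap.fst ℝ (Cm n) ℂ + (ContinuousLinearMap.single ℝ (fun _ => ℂ) j).comp
    (ContinuousLinearMap.snd ℝ (Cm n) ℂ -
      (ContinuousLinearMap.proj (R := ℝ) (φ := fun _ : Fin n => ℂ) j).comp
        (ContinuousLinearMap.fst ℝ (Cm n) ℂ))

theorem rep_apply (j : Fin n) (p : Cm n) (x : ℂ) :
    rep j (p, x) = p + Pi.single j (x - p j) := rfl

theorem rep_same (j : Fin n) (p : Cm n) (x : ℂ) : rep j (p, x) j = x := by
  rw [rep_apply]; simp

theorem rep_sub (j : Fin n) (z : Cm n) (t : ℂ) : rep j (z, z j - t) = z - Pi.single j t := by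
  rw [rep_apply, sub_eq_add_neg z, ← Pi.single_neg]
  congr 2
  ring

theorem rep_diag (j : Fin n) (v : Cm n) : rep j (v, v j) = v := by
  rw [rep_apply]; simp

/-- Cauchy transform in the variable `z_j` -/
def T (j : Fin n) (g : Cm n → ℂ) (z : Cm n) : ℂ := cau2 (fun p => g (rep j p)) (z, z j)

theorem T_eq (j : Fin n) (g : Cm n → ℂ) (z : Cm n) :
    T j g z = ∫ t : ℂ, ker1 t * g (z - Pi.single j t) := by
  unfold T cau2
  rw [convolution_def]
  congr 1
  funext t
  simp only [ContinuousLinearMap.mul_apply']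
  rw [rep_sub]

/-- `g` vanishes when the coordinate `j` is outside `K` -/
def SuppIn (j : Fin n) (K : Set ℂ) (g : Cm n → ℂ) : Prop := ∀ z : Cm n, z j ∉ K → g z = 0

variable {j : Fin n} {K : Set ℂ} {g : Cm n → ℂ}

theorem SuppIn.cau (h : SuppIn j K g) : ∀ (p : Cm n) (x : ℂ), x ∉ K → g (rep j (p, x)) = 0 := by
  intro p x hx
  apply h
  rw [rep_same]
  exact hx

theorem contDiff_rep {m : WithTop ℕ∞} (hg : ContDiff ℝ m g) :
    ContDiff ℝ m (fun p : Cm n × ℂ => g (rep j p)) :=
  hg.comp (rep j).contDiff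

/-- `z ↦ (z, z_j)` -/
def dg (j : Fin n) : Cm n →L[ℝ] Cm n × ℂ :=
  (ContinuousLinearMap.id ℝ (Cm n)).prod (ContinuousLinearMap.proj (R := ℝ) (φ := fun _ : Fin n => ℂ) j)

theorem dg_apply (j : Fin n) (z : Cm n) : dg j z = (z, z j) := rfl

theorem T_contDiff (hK : IsCompact K) (hg : ContDiff ℝ ∞ g) (h : SuppIn j K g) :
    ContDiff ℝ ∞ (T j g) :=
  (cau2_contDiff (contDiff_rep (j := j) hg) hK h.cau).comp (dg j).contDiff

theorem fderiv_T (hK : IsCompact K) (hg : ContDiff ℝ ∞ g) (h : SuppIn j K g)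
    (z v : Cm n) : fderiv ℝ (T j g) z v =
      fderiv ℝ (cau2 (fun p => g (rep j p))) (z, z j) (v, v j) := by
  have h1 := cau2_contDiff (contDiff_rep (j := j) hg) hK h.cau
  have h2 : HasFDerivAt (fun z : Cm n => dg j z) (dg j) z := (dg j).hasFDerivAt
  have h3 := ((h1.differentiable (by simp)) (dg j z)).hasFDerivAt.comp z h2
  have h4 : fderiv ℝ (T j g) z = _ := h3.fderiv
  rw [h4]
  rfl

theorem fderiv_comp_rep (hg : ContDiff ℝ ∞ g) (p v : Cm n × ℂ) :
    fderiv ℝ (fun p => g (rep j p)) p v = fderiv ℝ g (rep j p) (rep j v) := by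
  have h2 : HasFDerivAt (fun p : Cm n × ℂ => rep j p) (rep j) p := (rep j).hasFDerivAt
  have h3 := ((hg.differentiable (by simp)) (rep j p)).hasFDerivAt.comp p h2
  have h4 : fderiv ℝ (fun p => g (rep j p)) p = _ := h3.fderiv
  rw [h4]
  rfl

/-- derivatives of the transform -/
theorem fderiv_T_apply (hK : IsCompact K) (hg : ContDiff ℝ ∞ g) (h : SuppIn j K g)
    (z v : Cm n) : fderiv ℝ (T j g) z v = ∫ t : ℂ, ker1 t * fderiv ℝ g (z - Pi.single j t) v := by
  rw [fderiv_T hK hg h, fderiv_cau2_apply (contDiff_rep hg) hK h.cau]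
  congr 1
  funext t
  rw [fderiv_comp_rep hg, rep_diag, rep_sub]

theorem SuppIn.fderiv (hK : IsClosed K) (h : SuppIn j K g) {z : Cm n}
    (hz : z j ∉ K) : fderiv ℝ g z = 0 := by
  refine (hasFDerivAt_zero_of_eventually_const 0 ?_).fderiv
  have : ∀ᶠ y : Cm n in 𝓝 z, y j ∉ K :=
    (continuous_apply j).continuousAt.eventually (hK.isOpen_compl.mem_nhds hz)
  filter_upwards [this] with y hy
  exact h y hy

theorem SuppIn.dzb (hK : IsClosed K) (h : SuppIn j K g) (k : Fin n) :
    SuppIn j K (dzb k g) := by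
  intro z hz
  unfold Vale.Agent.P272.K.dzb
  rw [h.fderiv hK hz]
  simp

theorem integrable_aux (hK : IsCompact K) (hg : Continuous g) (h : SuppIn j K g)
    (z : Cm n) : Integrable fun t : ℂ => ker1 t * g (z - Pi.single j t) := by
  have hc : Continuous fun t : ℂ => g (z - Pi.single j t) :=
    hg.comp (continuous_const.sub (continuous_single (A := fun _ : Fin n => ℂ) j))
  have hs : HasCompactSupport fun t : ℂ => g (z - Pi.single j t) := by
    refine HasCompactSupport.intro (K := (fun x => z j - x) '' K)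
      (hK.image (by fun_prop)) fun t ht => ?_
    apply h
    simp only [Pi.sub_apply, Pi.single_eq_same]
    intro h'
    exact ht ⟨z j - t, h', by simp⟩
  have := locallyIntegrable_ker1.integrable_smul_left_of_hasCompactSupport hc hs
  refine this.congr (Eventually.of_forall fun w => ?_)
  simp [mul_comm]

/-- `∂̄_k` commutes with the transform -/
theorem dzb_T (hK : IsCompact K) (hg : ContDiff ℝ ∞ g) (h : SuppIn j K g)
    (k : Fin n) (z : Cm n) : dzb k (T j g) z = T j (dzb k g) z := by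
  have hI : ∀ v, Integrable fun t : ℂ => ker1 t * fderiv ℝ g (z - Pi.single j t) v := by
    intro v
    have h1 : Continuous fun y => fderiv ℝ g y v :=
      (hg.continuous_fderiv (by simp)).clm_apply continuous_const
    exact integrable_aux hK h1 (fun y (hy : y j ∉ K) => by
      simp only [h.fderiv hK.isClosed hy]; rfl) z
  rw [T_eq]
  unfold Vale.Agent.P272.K.dzb
  rw [fderiv_T_apply hK hg h, fderiv_T_apply hK hg h, ← integral_const_mul,
    ← integral_add (hI _) ((hI _).const_mul _), ← integral_div]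
  congr 1
  funext t
  ring

/-- `∂̄_j T_j = 1` -/
theorem dzb_T_self (hK : IsCompact K) (hg : ContDiff ℝ ∞ g) (h : SuppIn j K g)
    (z : Cm n) : dzb j (T j g) z = g z := by
  have h1 := dbv_cau2 (contDiff_rep (j := j) hg) hK h.cau (z, z j)
  simp only [rep_diag] at h1
  rw [← h1]
  have h2 : ∀ c : ℂ, fderiv ℝ (cau2 (fun p => g (rep j p))) (z, z j) (Pi.single j c, c) =
      fderiv ℝ (cau2 (fun p => g (rep j p))) (z, z j) (0, c) := by
    intro c
    rw [fderiv_cau2_apply (contDiff_rep hg) hK h.cau, fderiv_cau2_apply (contDiff_rep hg) hK h.cau]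
    congr 1
    funext t
    rw [fderiv_comp_rep hg, fderiv_comp_rep hg]
    congr 2
    rw [rep_apply, rep_apply]
    simp
  unfold Vale.Agent.P272.K.dzb dbv
  rw [fderiv_T hK hg h, fderiv_T hK hg h]
  simp only [Pi.single_eq_same]
  rw [h2, h2]
  have h3 : (Complex.I • ((0 : Cm n), (1 : ℂ))) = (0, Complex.I) := by
    ext <;> simp
  rw [h3]
  ring

end Vale.Agent.P277.H60.L
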