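import Vale.Agent.P277.H60.L.CT
import Vale.Agent.P272.K.Inv.Hess
import Vale.Agent.P268.Hol

/-!
# P277: the Dolbeault lemma for `(0,1)`-forms on polydiscs
-/

open Filter Topology MeasureTheory Set Metric
open scoped ContDiff Real

noncomputable section

namespace Vale.Agent.P277.H60.L

open Vale.Agent.P272.K

variable {n : ℕ}

/-- a product cut-off -/
theorem exists_cut (c : Cm n) {r R : ℝ} (hr : 0 < r) (hrR : r < R) :
    ∃ (φ : Cm n → ℂ) (ρ : ℝ), ρ < R ∧ ContDiff ℝ ∞ φ ∧ (∀ z ∈ ball c r, φ z = 1) ∧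
      (∀ (z : Cm n) (j : Fin n), z j ∉ closedBall (c j) ρ → φ z = 0) ∧
      ∀ (z : Cm n) (j : Fin n), z j ∈ ball (c j) r → dzb j φ z = 0 := by
  have hrR2 : r < (r + R) / 2 := by linarith
  let χ : ContDiffBump (0 : ℂ) := ⟨r, (r + R) / 2, hr, hrR2⟩
  let φ : Cm n → ℂ := fun z => ∏ l, ((χ (z l - c l) : ℝ) : ℂ)
  have hφ : ContDiff ℝ ∞ φ := by
    refine contDiff_prod fun l _ => ?_
    have h1 : ContDiff ℝ ∞ (fun x : ℂ => χ x) := χ.contDiff
    have h2 : ContDiff ℝ ∞ fun z : Cm n => z l - c l :=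
      ((ContinuousLinearMap.proj (R := ℝ) (φ := fun _ : Fin n => ℂ) l).contDiff).sub contDiff_const
    exact Complex.ofRealCLM.contDiff.comp (h1.comp h2)
  refine ⟨φ, (r + R) / 2, by linarith, hφ, ?_, ?_, ?_⟩
  · intro z hz
    refine Finset.prod_eq_one fun l _ => ?_
    have h1 : χ (z l - c l) = 1 := by
      refine χ.one_of_mem_closedBall ?_
      rw [mem_closedBall_zero_iff]
      have := (dist_pi_lt_iff hr).1 (mem_ball.1 hz) l
      rw [dist_eq_norm] at this
      exact this.le
    rw [h1]; simp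
  · intro z j hz
    refine Finset.prod_eq_zero (Finset.mem_univ j) ?_
    have h1 : χ (z j - c j) = 0 := by
      refine χ.zero_of_le_dist ?_
      rw [dist_zero_right]
      rw [mem_closedBall, dist_eq_norm, not_le] at hz
      exact hz.le
    rw [h1]; simp
  · intro z j hz
    have key : ∀ v : ℂ, fderiv ℝ φ z (Pi.single j v) = 0 := by
      intro v
      have h1 : HasFDerivAt φ (fderiv ℝ φ z) z := (hφ.differentiable (by simp) z).hasFDerivAt
      have h2 : HasDerivAt (fun s : ℝ => z + s • (Pi.single j v : Cm n)) (Pi.single j v) 0 := by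
        simpa using ((hasDerivAt_id (0 : ℝ)).smul_const (Pi.single j v : Cm n)).const_add z
      have h3 : HasDerivAt (fun s : ℝ => φ (z + s • (Pi.single j v : Cm n)))
          (fderiv ℝ φ z (Pi.single j v)) 0 := by
        have h1' : HasFDerivAt φ (fderiv ℝ φ z) (z + (0 : ℝ) • (Pi.single j v : Cm n)) := by
          simpa using h1
        exact h1'.comp_hasDerivAt (0 : ℝ) h2
      have h4 : (fun s : ℝ => φ (z + s • (Pi.single j v : Cm n))) =ᶠ[𝓝 0] fun _ => φ z := by
        have hc : ContinuousAt (fun s : ℝ => (z + s • (Pi.single j v : Cm n)) j) 0 := by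
          have : Continuous (fun s : ℝ => (z + s • (Pi.single j v : Cm n)) j) := by fun_prop
          exact this.continuousAt
        have h5 : ∀ᶠ s : ℝ in 𝓝 0, (z + s • (Pi.single j v : Cm n)) j ∈ ball (c j) r := by
          refine hc.eventually (isOpen_ball.mem_nhds ?_)
          simpa using hz
        filter_upwards [h5] with s hs
        refine Finset.prod_congr rfl fun l _ => ?_
        by_cases hl : l = j
        · subst hl
          have e1 : χ ((z + s • (Pi.single l v : Cm n)) l - c l) = 1 := by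
            refine χ.one_of_mem_closedBall ?_
            rw [mem_closedBall_zero_iff]
            rw [mem_ball, dist_eq_norm] at hs
            exact hs.le
          have e2 : χ (z l - c l) = 1 := by
            refine χ.one_of_mem_closedBall ?_
            rw [mem_closedBall_zero_iff]
            rw [mem_ball, dist_eq_norm] at hz
            exact hz.le
          rw [e1, e2]
        · simp [Pi.single_eq_of_ne hl]
      exact h3.unique ((hasDerivAt_const (0 : ℝ) (φ z)).congr_of_eventuallyEq h4)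
    unfold dzb
    rw [key, key]; simp

theorem ev_notMem {z : Cm n} {j : Fin n} {a : ℂ} {ρ : ℝ} (h : z j ∉ closedBall a ρ) :
    ∀ᶠ y : Cm n in 𝓝 z, y j ∉ closedBall a ρ := by
  have h1 : (closedBall a ρ)ᶜ ∈ 𝓝 (z j) := isClosed_closedBall.isOpen_compl.mem_nhds h
  have h2 : ContinuousAt (fun y : Cm n => y j) z := (continuous_apply j).continuousAt
  exact h2.eventually h1

/-- a function smooth on a ball, times a cut-off -/
theorem contDiff_cut_mul {c : Cm n} {ρ R : ℝ} (hρ : ρ < R) (hR : 0 < R) {φ f : Cm n → ℂ}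
    (hφ : ContDiff ℝ ∞ φ) (hφ0 : ∀ (z : Cm n) (j : Fin n), z j ∉ closedBall (c j) ρ → φ z = 0)
    (hf : ∀ z ∈ ball c R, ContDiffAt ℝ ∞ f z) : ContDiff ℝ ∞ fun z => φ z * f z := by
  rw [contDiff_iff_contDiffAt]
  intro z
  by_cases hz : z ∈ ball c R
  · exact hφ.contDiffAt.mul (hf z hz)
  · have h1 : ∃ j, R ≤ dist (z j) (c j) := by
      by_contra hcon
      push Not at hcon
      exact hz (mem_ball.2 ((dist_pi_lt_iff hR).2 hcon))
    obtain ⟨j, hj⟩ := h1
    have h2 : ∀ᶠ y : Cm n in 𝓝 z, y j ∉ closedBall (c j) ρ := by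
      refine ev_notMem ?_
      rw [mem_closedBall, not_le]
      exact lt_of_lt_of_le hρ hj
    refine (contDiffAt_const (c := (0 : ℂ))).congr_of_eventuallyEq ?_
    filter_upwards [h2] with y hy
    rw [hφ0 y j hy, zero_mul]

theorem smooth_dzb' {f : Cm n → ℂ} {z : Cm n} (hf : ContDiffAt ℝ ∞ f z) (k : Fin n) :
    ContDiffAt ℝ ∞ (dzb k f) z := contDiffAt_dzb hf (by simp)

theorem diff_of_smooth {f : Cm n → ℂ} {z : Cm n} (hf : ContDiffAt ℝ ∞ f z) :
    DifferentiableAt ℝ f z := hf.differentiableAt (by simp)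

theorem two_of_smooth {f : Cm n → ℂ} {z : Cm n} (hf : ContDiffAt ℝ ∞ f z) :
    ContDiffAt ℝ 2 f z := hf.of_le (by norm_cast)

/-- the Dolbeault lemma, induction on the number of nonzero coefficients -/
theorem dolb_aux (m : ℕ) : ∀ (c : Cm n) (r R : ℝ) (_ : 0 < r) (_ : r < R)
    (b : Fin n → Cm n → ℂ) (_ : ∀ i, ∀ z ∈ ball c R, ContDiffAt ℝ ∞ (b i) z)
    (_ : ∀ i j, ∀ z ∈ ball c R, dzb i (b j) z = dzb j (b i) z)
    (_ : ∀ i : Fin n, m ≤ i → ∀ z ∈ ball c R, b i z = 0),
    ∃ u : Cm n → ℂ, ContDiff ℝ ∞ u ∧ ∀ j, ∀ z ∈ ball c r, dzb j u z = b j z := by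
  induction m with
  | zero =>
    intro c r R hr hrR b hb hcl h0
    refine ⟨fun _ => 0, contDiff_const, fun j z hz => ?_⟩
    rw [dzb_const, h0 j (Nat.zero_le _) z (ball_subset_ball hrR.le hz)]
  | succ m ih =>
    intro c r R hr hrR b hb hcl h0
    by_cases hm : m < n
    swap
    · exact ih c r R hr hrR b hb hcl fun i hi => by
        exfalso
        have := i.2
        omega
    set k : Fin n := ⟨m, hm⟩ with hk
    set r' : ℝ := (r + R) / 2 with hr'
    have h1 : r < r' := by rw [hr']; linarith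
    have h2 : r' < R := by rw [hr']; linarith
    have hr'0 : 0 < r' := hr.trans h1
    have hR0 : 0 < R := hr.trans hrR
    obtain ⟨φ, ρ, hρ, hφ, hφ1, hφ0, hφd⟩ := exists_cut c hr'0 h2
    set g : Cm n → ℂ := fun z => φ z * b k z with hg
    have hgc : ContDiff ℝ ∞ g := contDiff_cut_mul hρ hR0 hφ hφ0 (hb k)
    have hK : IsCompact (closedBall (c k) ρ) := isCompact_closedBall _ _
    have hgs : SuppIn k (closedBall (c k) ρ) g := by
      intro z hz
      simp only [hg]
      rw [hφ0 z k hz, zero_mul]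
    set u₁ : Cm n → ℂ := T k g with hu₁
    have hu₁c : ContDiff ℝ ∞ u₁ := T_contDiff hK hgc hgs
    have hu₁k : ∀ z ∈ ball c r', dzb k u₁ z = b k z := by
      intro z hz
      rw [hu₁, dzb_T_self hK hgc hgs, hg]
      simp only
      rw [hφ1 z hz, one_mul]
    have hu₁j : ∀ j : Fin n, m < j → ∀ z ∈ ball c r', dzb j u₁ z = 0 := by
      intro j hj z hz
      rw [hu₁, dzb_T hK hgc hgs, T_eq]
      refine integral_eq_zero_of_ae (Eventually.of_forall fun t => ?_)
      have hjk : j ≠ k := by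
        rintro rfl
        simp [hk] at hj
      set w : Cm n := z - Pi.single k t with hw
      have hwj : w j = z j := by
        rw [hw]; simp [Pi.single_eq_of_ne hjk]
      have hwb : w j ∈ ball (c j) r' := by
        rw [hwj]
        exact mem_ball.2 ((dist_pi_lt_iff hr'0).1 (mem_ball.1 hz) j)
      have key : dzb j g w = 0 := by
        by_cases hwR : w ∈ ball c R
        · rw [hg, dzb_mul (hφ.differentiable (by simp) w) (diff_of_smooth (hb k w hwR)),
            hφd w j hwb, hcl j k w hwR]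
          have : dzb k (b j) w = 0 := by
            have hev : b j =ᶠ[𝓝 w] fun _ => 0 := by
              filter_upwards [isOpen_ball.mem_nhds hwR] with y hy
              exact h0 j (by omega) y hy
            rw [dzb_congr hev, dzb_const]
          rw [this]; ring
        · have h3 : ∃ l, R ≤ dist (w l) (c l) := by
            by_contra hcon
            push Not at hcon
            exact hwR (mem_ball.2 ((dist_pi_lt_iff hR0).2 hcon))
          obtain ⟨l, hl⟩ := h3
          have h4 : g =ᶠ[𝓝 w] fun _ => 0 := by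
            have h5 : ∀ᶠ y : Cm n in 𝓝 w, y l ∉ closedBall (c l) ρ := by
              refine ev_notMem ?_
              rw [mem_closedBall, not_le]
              exact lt_of_lt_of_le hρ hl
            filter_upwards [h5] with y hy
            rw [hg]
            simp only
            rw [hφ0 y l hy, zero_mul]
          rw [dzb_congr h4, dzb_const]
      show _ * dzb j g w = (0 : ℂ)
      rw [key, mul_zero]
    have hbs : ∀ i, ∀ z ∈ ball c r', ContDiffAt ℝ ∞ (fun y => b i y - dzb i u₁ y) z :=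
      fun i z hz => (hb i z (ball_subset_ball h2.le hz)).sub (smooth_dzb' hu₁c.contDiffAt i)
    obtain ⟨u₂, hu₂, hu₂'⟩ := ih c r r' hr h1 (fun i y => b i y - dzb i u₁ y) hbs
      (by
        intro i j z hz
        have hzR := ball_subset_ball h2.le hz
        rw [dzb_sub (diff_of_smooth (hb j z hzR)) (diff_of_smooth (smooth_dzb' hu₁c.contDiffAt j)),
          dzb_sub (diff_of_smooth (hb i z hzR)) (diff_of_smooth (smooth_dzb' hu₁c.contDiffAt i)),
          hcl i j z hzR, dzb_dzb_comm (two_of_smooth hu₁c.contDiffAt)])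
      (by
        intro i hi z hz
        have hzR := ball_subset_ball h2.le hz
        show b i z - dzb i u₁ z = 0
        rcases Nat.lt_or_ge m i with h3 | h3
        · rw [h0 i h3 z hzR, hu₁j i h3 z hz, sub_zero]
        · have : i = k := Fin.ext (le_antisymm h3 hi)
          rw [this, hu₁k z hz, sub_self])
    refine ⟨fun z => u₁ z + u₂ z, hu₁c.add hu₂, fun j z hz => ?_⟩
    rw [dzb_add (hu₁c.differentiable (by simp) z) (hu₂.differentiable (by simp) z), hu₂' j z hz]
    ring

/-- **Dolbeault lemma** for `(0,1)`-forms on polydiscs -/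
theorem dolbeault (c : Cm n) {r R : ℝ} (hr : 0 < r) (hrR : r < R)
    (b : Fin n → Cm n → ℂ) (hb : ∀ i, ∀ z ∈ ball c R, ContDiffAt ℝ ∞ (b i) z)
    (hcl : ∀ i j, ∀ z ∈ ball c R, dzb i (b j) z = dzb j (b i) z) :
    ∃ u : Cm n → ℂ, ContDiff ℝ ∞ u ∧ ∀ j, ∀ z ∈ ball c r, dzb j u z = b j z :=
  dolb_aux n c r R hr hrR b hb hcl fun i hi => by
    exfalso
    have := i.2
    omega

theorem differentiableAt_of_dzb {F : Cm n → ℂ} {z : Cm n} (hF : DifferentiableAt ℝ F z)
    (h : ∀ l, dzb l F z = 0) : DifferentiableAt ℂ F z := by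
  have hI : ∀ j, fderiv ℝ F z (Pi.single j Complex.I) =
      Complex.I * fderiv ℝ F z (Pi.single j 1) := by
    intro j
    have h1 := h j
    unfold dzb at h1
    have h2 : fderiv ℝ F z (Pi.single j 1) +
        Complex.I * fderiv ℝ F z (Pi.single j Complex.I) = 0 := by
      simpa using h1
    linear_combination (-Complex.I) * h2 + (fderiv ℝ F z (Pi.single j Complex.I)) * Complex.I_mul_I
  rw [differentiableAt_iff_restrictScalars ℝ hF]
  refine ⟨∑ j, (fderiv ℝ F z (Pi.single j 1)) • (ContinuousLinearMap.proj j : Cm n →L[ℂ] ℂ), ?_⟩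
  ext v
  have hv : v = ∑ j, ((v j).re • (Pi.single j (1 : ℂ) : Cm n) +
      (v j).im • (Pi.single j Complex.I : Cm n)) := by
    ext i
    simp only [Finset.sum_apply, Pi.add_apply, Pi.smul_apply]
    rw [Finset.sum_eq_single i]
    · simp only [Pi.single_eq_same, Complex.real_smul, mul_one]
      exact (Complex.re_add_im (v i)).symm
    · intro j _ hj
      simp [Pi.single_eq_of_ne (Ne.symm hj)]
    · simp
  conv_rhs => rw [hv]
  simp only [map_sum, map_add, map_smul, hI]
  simp only [ContinuousLinearMap.coe_restrictScalars', sum_apply, smul_apply,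
    ContinuousLinearMap.proj_apply, smul_eq_mul, Complex.real_smul]
  refine Finset.sum_congr rfl fun j _ => ?_
  conv_lhs => rw [← Complex.re_add_im (v j)]
  ring

theorem analyticAt_of_dzb {F : Cm n → ℂ} {z : Cm n}
    (h : ∀ᶠ y in 𝓝 z, DifferentiableAt ℝ F y ∧ ∀ l, dzb l F y = 0) : AnalyticAt ℂ F z := by
  obtain ⟨U, hU, hUo, hz⟩ := _root_.eventually_nhds_iff.1 h
  exact Vale.Agent.P268.analyticAt_of_differentiableOn hUo
    (fun y hy => (differentiableAt_of_dzb (hU y hy).1 (hU y hy).2).differentiableWithinAt) hz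

/-- (P1a) -/
theorem dbar_glue (n : ℕ) (c : Cm n) (r R : ℝ) (hr : 0 < r) (hrR : r < R) (ι : Type)
    (U : ι → Set (Cm n)) (g : ι → Cm n → ℂ) (hU : ∀ i, IsOpen (U i)) (hcov : ball c R ⊆ ⋃ i, U i)
    (hg : ∀ i, ∀ z ∈ U i, ContDiffAt ℝ ∞ (g i) z)
    (hd : ∀ i j, ∀ z ∈ U i ∩ U j, AnalyticAt ℂ (fun z => g i z - g j z) z) :
    ∃ f : Cm n → ℂ, ContDiff ℝ ∞ f ∧
      ∀ i, ∀ z ∈ U i ∩ ball c r, AnalyticAt ℂ (fun z => f z - g i z) z := by
  classical
  rcases isEmpty_or_nonempty ι with hι | hι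
  · refine ⟨fun _ => 0, contDiff_const, fun i => (hι.false i).elim⟩
  have hch : ∀ z : Cm n, ∃ i, z ∈ ball c R → z ∈ U i := by
    intro z
    by_cases hz : z ∈ ball c R
    · obtain ⟨i, hi⟩ := mem_iUnion.1 (hcov hz)
      exact ⟨i, fun _ => hi⟩
    · exact ⟨Classical.arbitrary ι, fun h => (hz h).elim⟩
  choose s hs using hch
  let b : Fin n → Cm n → ℂ := fun j z => dzb j (g (s z)) z
  have hbe : ∀ (i : ι) (j : Fin n), ∀ z ∈ U i ∩ ball c R, b j z = dzb j (g i) z := by
    intro i j z hz
    have h1 := hs z hz.2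
    have h2 := hd (s z) i z ⟨h1, hz.1⟩
    have h3 : dzb j (fun y => g (s z) y - g i y) z = 0 := dzb_of_holo h2.differentiableAt
    rw [dzb_sub (diff_of_smooth (hg _ z h1)) (diff_of_smooth (hg _ z hz.1))] at h3
    exact sub_eq_zero.1 h3
  have hbev : ∀ (i : ι) (j : Fin n), ∀ z ∈ U i ∩ ball c R, b j =ᶠ[𝓝 z] dzb j (g i) := by
    intro i j z hz
    filter_upwards [((hU i).inter isOpen_ball).mem_nhds hz] with y hy
    exact hbe i j y hy
  obtain ⟨u, hu, hu'⟩ := dolbeault c hr hrR b
    (fun j z hz => by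
      have h1 : z ∈ U (s z) ∩ ball c R := ⟨hs z hz, hz⟩
      exact (smooth_dzb' (hg _ z h1.1) j).congr_of_eventuallyEq (hbev _ j z h1))
    (fun i j z hz => by
      have h1 : z ∈ U (s z) ∩ ball c R := ⟨hs z hz, hz⟩
      rw [dzb_congr (hbev _ j z h1), dzb_congr (hbev _ i z h1)]
      exact dzb_dzb_comm (two_of_smooth (hg _ z h1.1)))
  refine ⟨u, hu, fun i z hz => analyticAt_of_dzb ?_⟩
  filter_upwards [((hU i).inter isOpen_ball).mem_nhds hz] with y hy
  refine ⟨(hu.differentiable (by simp) y).sub (diff_of_smooth (hg i y hy.1)), fun l => ?_⟩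
  rw [dzb_sub (hu.differentiable (by simp) y) (diff_of_smooth (hg i y hy.1)), hu' l y hy.2,
    hbe i l y ⟨hy.1, ball_subset_ball hrR.le hy.2⟩, sub_self]

end Vale.Agent.P277.H60.L
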